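import Mathlib
import Vale.Agent.Helper28.SpinDirect

namespace Vale.Agent.Results.P348.GapDirectForm

open Vale.Agent.Helper28

/-- Direct form of the gap bound, with every notion written out in Mathlib terms.
For every even `L ≥ 4`, let `H` be the periodic spin-one Heisenberg Hamiltonian on `L` sites
(a matrix on configurations `Fin L → Fin 3`; site `j + 1` is taken modulo `L`) and `spec` its set
of real eigenvalues.  Then `spec` has a least element `E0`, the set of eigenvalues greater than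
`E0` has a least element `E1` (the next distinct eigenvalue), and `E1 - E0 ≤ 16`. -/
theorem result :
    ∀ (L : ℕ) [NeZero L], 4 ≤ L → Even L →
      let Sx : Matrix (Fin 3) (Fin 3) ℂ :=
        (((Real.sqrt 2 : ℝ) : ℂ)⁻¹) • !![0, 1, 0; 1, 0, 1; 0, 1, 0]
      let Sy : Matrix (Fin 3) (Fin 3) ℂ :=
        (((Real.sqrt 2 : ℝ) : ℂ)⁻¹) •
          !![0, -Complex.I, 0; Complex.I, 0, -Complex.I; 0, Complex.I, 0]
      let Sz : Matrix (Fin 3) (Fin 3) ℂ := !![1, 0, 0; 0, 0, 0; 0, 0, -1]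
      let site : Fin L → Matrix (Fin 3) (Fin 3) ℂ → Matrix (Fin L → Fin 3) (Fin L → Fin 3) ℂ :=
        fun j A σ τ => if ∀ k, k ≠ j → σ k = τ k then A (σ j) (τ j) else 0
      let H : Matrix (Fin L → Fin 3) (Fin L → Fin 3) ℂ :=
        ∑ j : Fin L, (site j Sx * site (j + 1) Sx + site j Sy * site (j + 1) Sy
          + site j Sz * site (j + 1) Sz)
      let spec : Set ℝ := {μ | ∃ v : (Fin L → Fin 3) → ℂ, v ≠ 0 ∧ H.mulVec v = (μ : ℂ) • v}
      ∃ E0 E1 : ℝ, IsLeast spec E0 ∧ IsLeast {μ | μ ∈ spec ∧ E0 < μ} E1 ∧ E1 - E0 ≤ 16 := by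
  intro L _ hL hE
  exact heisenberg_gap_direct L hL hE

end Vale.Agent.Results.P348.GapDirectForm
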