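import Mathlib
import Vale.Agent.Helper28.SpinMain

namespace Vale.Agent.Results.P348.GapUpperBound

open Vale.Agent.Helper28

/-- A uniform upper bound on the gap of the periodic spin-one Heisenberg chain: for every even
`L ≥ 4`, if `E0` is the least eigenvalue of `H_L`, then `H_L` has an eigenvalue `E1` with
`E0 < E1 ≤ E0 + 16`. Hence `γ_L = E_1(L) - E_0(L) ≤ 16` for all even `L ≥ 4`, and `Δ_1 ≤ 16`. -/
theorem result (L : ℕ) [NeZero L] (hL : 4 ≤ L) (hE : Even L) (E0 : ℝ)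
    (hE0 : IsEigenvalue (heisenberg L) E0)
    (hmin : ∀ μ : ℝ, IsEigenvalue (heisenberg L) μ → E0 ≤ μ) :
    ∃ E1 : ℝ, IsEigenvalue (heisenberg L) E1 ∧ E0 < E1 ∧ E1 ≤ E0 + 16 :=
  heisenberg_gap_le (by omega) hE E0 hE0 hmin

end Vale.Agent.Results.P348.GapUpperBound
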